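import Vale.Agent.P297.H72.Z2.TDefs

/-!
The lines through the nodes in the fibre `l = 0`.
-/

namespace Vale.Agent.P297.Z2

open Vale.Agent.P297.H160.Z2Irr

/-- The branch quartic of `T_0` on a line in the direction `(a, -b, 1)`, `b - a = 1`. -/
theorem tB_zero_line {R : Type*} [CommRing R] [Algebra ℂ R] {P : Par} (hM1 : P.M1 = 0)
    {a b : R} (hab : b - a = 1) (p r y w : R) :
    tB P 0 (a * w + p) (-b * w + r) (y + w) =
      ((dat P y).J0 p r + (algebraMap ℂ R P.Q0 * a - algebraMap ℂ R P.Q1 * b) * w) *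
      ((dat P y).J0 p r + (algebraMap ℂ R P.Q0 * a - algebraMap ℂ R P.Q1 * b) * w -
        4 * ((dat P y).N p r + (a * r - b * p) * w - a * b * w ^ 2)) := by
  obtain rfl : b = a + 1 := by linear_combination hab
  simp only [tB, Dat.Bq, Dat.K, Dat.J0, Dat.J1, Dat.N, Dat.E, Dat.F, dat, fU, fV, fa, fc, fe, fm,
    hM1, map_zero]
  ring

/-- A quadratic polynomial that is a square has discriminant zero. -/
theorem disc_of_sq {k : Type*} [Field k] [CharZero k] {c0 c1 c2 S s : k} (h0 : c0 = S ^ 2)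
    (h1 : c0 + c1 + c2 = (S + s) ^ 2) (h2 : c0 - c1 + c2 = (S - s) ^ 2) :
    c1 ^ 2 = 4 * c0 * c2 := by
  have h3 : c1 = 2 * S * s := by linear_combination (h1 - h2) / 2
  have h4 : c2 = s ^ 2 := by linear_combination (h1 + h2) / 2 - h0
  rw [h3, h4, h0]
  ring

/-- the discriminant of the branch quartic of `T_0` on a line through a node -/
theorem dir_disc {k : Type*} [Field k] [CharZero k] [Algebra ℂ k] {P : Par} (hM1 : P.M1 = 0)
    {a b p r y s s' : k} (hab : b - a = 1)
    (hB : ∀ z : k, tB P 0 (a * (z - y) + p) (-b * (z - y) + r) z = (s * z + s') ^ 2) :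
    ∀ J N d : k, (dat P y).J0 p r = J → (dat P y).N p r = N →
      algebraMap ℂ k P.Q0 * a - algebraMap ℂ k P.Q1 * b = d →
      (2 * J * d - 4 * N * d - 4 * J * (a * r - b * p)) ^ 2 =
        4 * (J * (J - 4 * N)) * (d * (d - 4 * (a * r - b * p)) + 4 * J * (a * b)) ∨
      d * (a * b) ≠ 0 := by
  intro J N d hJ hN hd
  by_cases h3 : d * (a * b) = 0
  · left
    have hb : ∀ w : k, (J + d * w) * (J + d * w - 4 * (N + (a * r - b * p) * w - a * b * w ^ 2)) =
        (s * (y + w) + s') ^ 2 := by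
      intro w
      rw [← hB (y + w), show y + w - y = w by ring, tB_zero_line hM1 hab, hJ, hN, hd]
    have h0 := hb 0
    have h1 := hb 1
    have h2 := hb (-1)
    have e := disc_of_sq (c0 := J * (J - 4 * N))
      (c1 := 2 * J * d - 4 * N * d - 4 * J * (a * r - b * p))
      (c2 := d * (d - 4 * (a * r - b * p)) + 4 * J * (a * b)) (S := s * y + s') (s := s)
      (by linear_combination h0) (by linear_combination h1 - 4 * h3)
      (by linear_combination h2 + 4 * h3)
    exact e
  · right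
    exact h3

/-- **[DIR] (i)** -/
theorem dir_zero {k : Type*} [Field k] [Algebra ℂ k] {P : Par} (hM1 : P.M1 = 0)
    {a b p r y s s' : k} (ha : a = 0) (hb : b = 1)
    (hB : ∀ z : k, tB P 0 (a * (z - y) + p) (-b * (z - y) + r) z = (s * z + s') ^ 2) :
    algebraMap ℂ k P.Q1 * (dat P y).N p r = p * (dat P y).J0 p r := by
  subst ha hb
  have : CharZero k := charZero_of_injective_algebraMap (algebraMap ℂ k).injective
  have h := dir_disc hM1 (a := 0) (b := 1) (by ring) hB _ _ _ rfl rfl rfl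
  rcases h with h | h
  · have h1 : (algebraMap ℂ k P.Q1 * (dat P y).N p r - p * (dat P y).J0 p r) ^ 2 = 0 := by
      linear_combination h / 16
    exact sub_eq_zero.1 (pow_eq_zero_iff two_ne_zero |>.1 h1)
  · exact absurd (by ring) h

/-- **[DIR] (ii)** -/
theorem dir_inf {k : Type*} [Field k] [Algebra ℂ k] {P : Par} (hM1 : P.M1 = 0)
    {a b p r y s s' : k} (ha : a = -1) (hb : b = 0)
    (hB : ∀ z : k, tB P 0 (a * (z - y) + p) (-b * (z - y) + r) z = (s * z + s') ^ 2) :
    algebraMap ℂ k P.Q0 * (dat P y).N p r = r * (dat P y).J0 p r := by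
  subst ha hb
  have : CharZero k := charZero_of_injective_algebraMap (algebraMap ℂ k).injective
  have h := dir_disc hM1 (a := -1) (b := 0) (by ring) hB _ _ _ rfl rfl rfl
  rcases h with h | h
  · have h1 : (algebraMap ℂ k P.Q0 * (dat P y).N p r - r * (dat P y).J0 p r) ^ 2 = 0 := by
      linear_combination h / 16
    exact sub_eq_zero.1 (pow_eq_zero_iff two_ne_zero |>.1 h1)
  · exact absurd (by ring) h

/-- **[DIR] (iii)** -/
theorem dir_three {k : Type*} [Field k] [Algebra ℂ k] {P : Par} (hM1 : P.M1 = 0)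
    {a b p r y s s' : k} (hab : b - a = 1)
    (hQ : algebraMap ℂ k P.Q0 * a = algebraMap ℂ k P.Q1 * b)
    (hB : ∀ z : k, tB P 0 (a * (z - y) + p) (-b * (z - y) + r) z = (s * z + s') ^ 2) :
    (dat P y).J0 p r = 0 ∨ (a * r + b * p) ^ 2 =
      a * b * ((dat P y).J0 p r + 4 * algebraMap ℂ k P.P0 * algebraMap ℂ k P.P2) := by
  have : CharZero k := charZero_of_injective_algebraMap (algebraMap ℂ k).injective
  have h := dir_disc hM1 hab hB _ _ _ rfl rfl rfl
  rw [sub_eq_zero.2 hQ] at h
  rcases h with h | h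
  · by_cases hJ : (dat P y).J0 p r = 0
    · exact Or.inl hJ
    · right
      have hN : (dat P y).N p r = p * r - algebraMap ℂ k P.P0 * algebraMap ℂ k P.P2 := rfl
      rw [hN] at h
      have h1 : (dat P y).J0 p r ^ 2 * ((a * r + b * p) ^ 2 -
          a * b * ((dat P y).J0 p r + 4 * algebraMap ℂ k P.P0 * algebraMap ℂ k P.P2)) = 0 := by
        linear_combination h / 16
      exact sub_eq_zero.1 ((mul_eq_zero.1 h1).resolve_left (pow_ne_zero 2 hJ))
  · exact absurd (by ring) h

end Vale.Agent.P297.Z2
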