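import Vale.Agent.P297.H72.Z2.TDefs

/-!
The cubic form `Kc` does not vanish at the points of the surface in `T_l`.
-/

namespace Vale.Agent.P297.Z2

open Vale.Agent.P297.H160.Z2Irr

theorem Dat.Kc_ne {k : Type*} [Field k] [CharZero k] (D : Dat k) {l p r S : k} (hA : D.A ≠ 0)
    (hU : D.U ≠ 0) (hV : D.V ≠ 0) (hE : D.E p ≠ 0) (hh : D.h l ≠ 0)
    (hS : S ^ 2 = D.Bq l p r) (hΦ : D.Phi l p r S = 0) : D.Kc l p r S ≠ 0 := by
  intro hK
  have h1 := D.Phi_eq l p r S
  have h2 := D.cubic_eq l p r S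
  have h3 : D.Kc l p r S = D.tN l p r S * D.F r ^ 2 - D.sN l p r S * D.E p ^ 2 := rfl
  have h4 : D.q0 l p r S = (D.sN l p r S + 4 * D.A * D.V * D.F r) *
      (D.tN l p r S - 4 * D.B * D.U * D.E p) +
      4 * (D.A * D.V * D.E p + D.B * D.U * D.F r) ^ 2 := rfl
  rw [hΦ, hK] at h1
  rw [hS, hK, h4] at h2
  rw [hK] at h3
  generalize D.sN l p r S = s at *
  generalize D.tN l p r S = t at *
  generalize D.E p = E at *
  generalize D.F r = F at *
  generalize D.h l = h at *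
  -- the linear relation
  have h5 : E * s - F * t + 2 * E * F * (D.U * D.V + D.A * D.V + D.B * D.U) -
      2 * D.B * D.U * F ^ 2 - 2 * D.A * D.V * E ^ 2 = 0 := by
    have : h * (E * s - F * t + 2 * E * F * (D.U * D.V + D.A * D.V + D.B * D.U) -
      2 * D.B * D.U * F ^ 2 - 2 * D.A * D.V * E ^ 2) = 0 := by linear_combination -h1
    exact (mul_eq_zero.1 this).resolve_left hh
  have h6 : (s + 4 * D.A * D.V * F) * (t - 4 * D.B * D.U * E) +
      4 * (D.A * D.V * E + D.B * D.U * F) ^ 2 = 0 := by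
    linear_combination -h2 + 2 * l * D.U * D.V * h5
  have h7 : (F * t + 2 * E * (D.A * D.V * E - D.B * D.U * F)) ^ 2 = 0 := by
    linear_combination E ^ 2 * h6 - (t - 4 * D.B * D.U * E) * h3
  have h8 : F * t + 2 * E * (D.A * D.V * E - D.B * D.U * F) = 0 := by
    simpa using h7
  have h9 : 2 * E ^ 2 * D.U * D.V * F = 0 := by
    linear_combination E * h5 - h3 - (F - E) * h8
  have h10 : F = 0 := by
    refine (mul_eq_zero.1 h9).resolve_left ?_
    exact mul_ne_zero (mul_ne_zero (mul_ne_zero two_ne_zero (pow_ne_zero 2 hE)) hU) hV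
  rw [h10] at h8
  have h11 : 2 * E ^ 2 * D.A * D.V = 0 := by linear_combination h8
  exact mul_ne_zero (mul_ne_zero (mul_ne_zero two_ne_zero (pow_ne_zero 2 hE)) hA) hV h11

/-- **[KC]** -/
theorem Kc_ne {N : Type*} [Field N] [Algebra ℂ N] {P : Par} {l p r y S : N} (hP0 : P.P0 ≠ 0)
    (hU : fU P y ≠ 0) (hV : fV P y ≠ 0) (hE : (dat P y).E p ≠ 0) (hh : (dat P y).h l ≠ 0)
    (hS : S ^ 2 = tB P l p r y) (hΦ : tPhi P l p r y S = 0) : (dat P y).Kc l p r S ≠ 0 := by
  have : CharZero N := charZero_of_injective_algebraMap (algebraMap ℂ N).injective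
  refine (dat P y).Kc_ne ?_ hU hV hE hh hS hΦ
  change algebraMap ℂ N P.P0 ≠ 0
  exact fun h => hP0 ((algebraMap ℂ N).injective (h.trans (map_zero _).symm))

end Vale.Agent.P297.Z2
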